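import Vale.Agent.P181.H563.End

set_option autoImplicit false

/-! Line FLAT: a highest weight functional which kills all products of `M ≥ λ_1` top minors is
zero. -/

namespace Vale.Agent.P181.FLAT.H898

open Vale.Agent.P181 Finset MvPolynomial Vale.Agent.P181.H414 Vale.Agent.P181.H563

variable {ι : Type*} {n : ℕ}

/-- The data of a column: its length and its points. -/
structure Col (ι : Type*) (n : ℕ) where
  h : ℕ
  hh : h ≤ n
  pt : Fin h → ι

/-- The top minor of a column. -/
noncomputable def Col.det (c : Col ι n) : MvPolynomial (ι × Fin n) ℂ :=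
  Matrix.det (Matrix.of fun s t : Fin c.h => X (c.pt t, Fin.castLE c.hh s))

/-- The embedding of the first `h` rows. -/
def emb {h n : ℕ} (hh : h ≤ n) (p : ι × Fin h) : ι × Fin n := (p.1, Fin.castLE hh p.2)

lemma Col.det_eq (c : Col ι n) : c.det = rename (emb c.hh) (dt c.pt) := by
  rw [Col.det, dt, AlgHom.map_det]
  congr 1
  ext1 s t
  simp [emb]

lemma pol_emb {h : ℕ} (hh : h ≤ n) (k m : Fin h) (P : MvPolynomial (ι × Fin h) ℂ) :
    pol (Fin.castLE hh k) (Fin.castLE hh m) (rename (emb hh) P) =
      rename (emb hh) (pol k m P) := by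
  induction P using MvPolynomial.induction_on with
  | C c =>
    rw [rename_C]
    have h1 : pol (Fin.castLE hh k) (Fin.castLE hh m) (C c : MvPolynomial (ι × Fin n) ℂ) = 0 :=
      Derivation.map_algebraMap _ c
    have h2 : pol k m (C c : MvPolynomial (ι × Fin h) ℂ) = 0 := Derivation.map_algebraMap _ c
    rw [h1, h2, map_zero]
  | add p q hp hq => rw [map_add, map_add, hp, hq, map_add, map_add]
  | mul_X p j hp =>
    obtain ⟨i, j⟩ := j
    have hij : emb hh (i, j) = (i, Fin.castLE hh j) := rfl
    rw [map_mul, rename_X, hij, Derivation.leibniz, Derivation.leibniz, hp, pol_X, pol_X,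
      smul_eq_mul, smul_eq_mul, smul_eq_mul, smul_eq_mul, map_add, map_mul, map_mul, rename_X, hij]
    by_cases hj : j = m
    · subst hj
      rw [if_pos rfl, if_pos rfl, rename_X]
      rfl
    · rw [if_neg hj, if_neg (fun h => hj (Fin.castLE_injective hh h)), map_zero]

lemma pol_off {h : ℕ} (hh : h ≤ n) (k m : Fin n) (hm : h ≤ (m : ℕ))
    (P : MvPolynomial (ι × Fin h) ℂ) : pol k m (rename (emb hh) P) = 0 := by
  induction P using MvPolynomial.induction_on with
  | C c =>
    rw [rename_C]
    exact Derivation.map_algebraMap _ c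
  | add p q hp hq => rw [map_add, map_add, hp, hq, add_zero]
  | mul_X p j hp =>
    obtain ⟨i, j⟩ := j
    have hij : emb hh (i, j) = (i, Fin.castLE hh j) := rfl
    have hjm : Fin.castLE hh j ≠ m := by
      rintro rfl
      have := j.2
      rw [Fin.val_castLE] at hm
      omega
    rw [map_mul, rename_X, hij, Derivation.leibniz, hp, pol_X, if_neg hjm, smul_zero, smul_zero,
      add_zero]

variable [Fintype ι]

lemma pol_monomial (m : Fin n) (d : (ι × Fin n) →₀ ℕ) :
    pol m m (monomial d (1 : ℂ)) = ((∑ i, d (i, m) : ℕ) : ℂ) • monomial d (1 : ℂ) := by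
  classical
  rw [pol_eq_sum, Nat.cast_sum, Finset.sum_smul]
  apply Finset.sum_congr rfl
  intro i _
  rw [pderiv_monomial, one_mul]
  by_cases hz : d (i, m) = 0
  · rw [hz, Nat.cast_zero, monomial_zero, mul_zero, zero_smul]
  · have h1 : (Finsupp.single (i, m) 1 + (d - Finsupp.single (i, m) 1) : (ι × Fin n) →₀ ℕ) = d := by
      ext p
      rw [Finsupp.add_apply, Finsupp.tsub_apply, Finsupp.single_apply]
      by_cases hp : (i, m) = p
      · rw [if_pos hp, ← hp]
        omega
      · rw [if_neg hp]
        omega
    rw [X, monomial_mul, one_mul, smul_monomial, smul_eq_mul, mul_one, h1]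

/-- A functional of weight zero in the row `k` kills everything that contains the row `k`. -/
lemma van (phi : MvPolynomial (ι × Fin n) ℂ →ₗ[ℂ] ℂ) (k : Fin n)
    (h1 : ∀ P, phi (pol k k P) = 0) (d : (ι × Fin n) →₀ ℕ) (hd : ∑ i, d (i, k) ≠ 0) :
    phi (monomial d 1) = 0 := by
  have h2 := h1 (monomial d 1)
  rw [pol_monomial, map_smul, smul_eq_mul] at h2
  exact (mul_eq_zero.1 h2).resolve_left (Nat.cast_ne_zero.2 hd)

lemma van_X (phi : MvPolynomial (ι × Fin n) ℂ →ₗ[ℂ] ℂ) (k : Fin n)
    (h1 : ∀ P, phi (pol k k P) = 0) (i : ι) (P : MvPolynomial (ι × Fin n) ℂ) :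
    phi (X (i, k) * P) = 0 := by
  classical
  induction P using MvPolynomial.induction_on' with
  | monomial d c =>
    have h2 : (X (i, k) * monomial d c : MvPolynomial (ι × Fin n) ℂ) =
        c • monomial (Finsupp.single (i, k) 1 + d) 1 := by
      rw [X, monomial_mul, one_mul, smul_monomial, smul_eq_mul, mul_one]
    rw [h2, map_smul, van phi k h1, smul_zero]
    have h3 : (Finsupp.single (i, k) 1 + d : (ι × Fin n) →₀ ℕ) (i, k) ≠ 0 := by
      rw [Finsupp.add_apply, Finsupp.single_eq_same]
      omega
    intro h4
    exact h3 ((Finset.sum_eq_zero_iff.1 h4) i (Finset.mem_univ i))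
  | add p q hp hq => rw [mul_add, map_add, hp, hq, add_zero]

theorem cols (M : ℕ) : ∀ (phi : MvPolynomial (ι × Fin n) ℂ →ₗ[ℂ] ℂ) (lam : Fin n → ℕ),
    Antitone lam → (∀ i, lam i ≤ M) → (∀ m k : Fin n, m < k → ∀ P, phi (pol k m P) = 0) →
    (∀ (m : Fin n) P, phi (pol m m P) = (lam m : ℂ) * phi P) →
    (∀ c : Fin M → Col ι n, phi (∏ j, (c j).det) = 0) → phi = 0 := by
  classical
  induction M with
  | zero =>
    intro phi lam _ hM _ h1 hz
    have h2 : phi 1 = 0 := by
      have := hz (fun j => j.elim0)
      simpa using this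
    apply (MvPolynomial.basisMonomials _ ℂ).ext
    intro d
    rw [coe_basisMonomials, LinearMap.zero_apply]
    by_cases hd : d = 0
    · rw [hd]
      exact h2
    · obtain ⟨⟨i, k⟩, hik⟩ : ∃ p, d p ≠ 0 := by
        by_contra h
        push Not at h
        exact hd (Finsupp.ext h)
      apply van phi k
      · intro P
        rw [h1, Nat.le_zero.1 (hM k), Nat.cast_zero, zero_mul]
      · intro h4
        exact hik ((Finset.sum_eq_zero_iff.1 h4) i (Finset.mem_univ i))
  | succ M ih =>
    intro phi lam hanti hM h0 h1 hz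
    -- the number of nonzero rows
    obtain ⟨h, hh, hpos, hzero⟩ : ∃ h : ℕ, h ≤ n ∧ (∀ m : Fin n, (m : ℕ) < h → lam m ≠ 0) ∧
        ∀ m : Fin n, h ≤ (m : ℕ) → lam m = 0 := by
      by_cases hex : ∃ h : ℕ, ∃ hn : h < n, lam ⟨h, hn⟩ = 0
      · refine ⟨Nat.find hex, ?_, ?_, ?_⟩
        · obtain ⟨hn, _⟩ := Nat.find_spec hex
          exact hn.le
        · intro m hm hm0
          exact Nat.find_min hex hm ⟨m.2, hm0⟩
        · intro m hm
          obtain ⟨hn, h2⟩ := Nat.find_spec hex
          have h3 : lam m ≤ lam ⟨Nat.find hex, hn⟩ := hanti hm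
          omega
      · push Not at hex
        exact ⟨n, le_rfl, fun m _ => hex m m.2, fun m hm => absurd m.2 (not_lt.2 hm)⟩
    have hk0 : ∀ k : Fin n, h ≤ (k : ℕ) → ∀ P, phi (pol k k P) = 0 := by
      intro k hk P
      rw [h1, hzero k hk, Nat.cast_zero, zero_mul]
    -- one column
    have hcol : ∀ (pt : Fin h → ι) (Q : MvPolynomial (ι × Fin n) ℂ),
        phi ((Col.mk h hh pt).det * Q) = 0 := by
      intro pt
      set D := (Col.mk h hh pt).det with hD
      have hDe : D = rename (emb hh) (dt pt) := Col.det_eq _
      have hl : phi ∘ₗ LinearMap.mulLeft ℂ D = 0 := by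
        apply ih _ (fun m => lam m - 1)
        · intro a b hab
          exact Nat.sub_le_sub_right (hanti hab) 1
        · intro i
          have := hM i
          change lam i - 1 ≤ M
          omega
        · intro m k hmk P
          rw [LinearMap.comp_apply, LinearMap.mulLeft_apply]
          have h2 : D * pol k m P = pol k m (D * P) - pol k m D * P := by
            rw [Derivation.leibniz, smul_eq_mul, smul_eq_mul]; ring
          rw [h2, map_sub, h0 m k hmk, zero_sub, neg_eq_zero]
          by_cases hm : h ≤ (m : ℕ)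
          · rw [hDe, pol_off hh k m hm, zero_mul, map_zero]
          · rw [not_le] at hm
            by_cases hk : h ≤ (k : ℕ)
            · rw [pol_eq_sum, Finset.sum_mul, map_sum]
              apply Finset.sum_eq_zero
              intro i _
              rw [mul_assoc]
              exact van_X phi k (hk0 k hk) i _
            · rw [not_le] at hk
              have h3 := pol_emb hh ⟨k, hk⟩ ⟨m, hm⟩ (dt pt)
              have h4 : (⟨(k : ℕ), hk⟩ : Fin h) ≠ ⟨(m : ℕ), hm⟩ := by
                intro h5
                have h6 : (k : ℕ) = (m : ℕ) := by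
                  simpa using congrArg (fun x : Fin h => (x : ℕ)) h5
                exact hmk.ne' (Fin.ext h6)
              rw [pol_dt, if_neg h4, map_zero] at h3
              have h5 : pol k m D = 0 := by
                rw [hDe]
                exact h3
              rw [h5, zero_mul, map_zero]
        · intro m P
          rw [LinearMap.comp_apply, LinearMap.mulLeft_apply, LinearMap.comp_apply,
            LinearMap.mulLeft_apply]
          have h2 : D * pol m m P = pol m m (D * P) - pol m m D * P := by
            rw [Derivation.leibniz, smul_eq_mul, smul_eq_mul]; ring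
          rw [h2, map_sub, h1]
          by_cases hm : h ≤ (m : ℕ)
          · rw [hDe, pol_off hh m m hm, zero_mul, map_zero, hzero m hm]
            simp
          · rw [not_le] at hm
            have h3 := pol_emb hh ⟨m, hm⟩ ⟨m, hm⟩ (dt pt)
            rw [pol_dt, if_pos rfl] at h3
            have h5 : pol m m D = D := by
              conv_rhs => rw [hDe, ← h3]
              rw [hDe]
              rfl
            rw [h5]
            have h6 : 1 ≤ lam m := Nat.one_le_iff_ne_zero.2 (hpos m hm)
            rw [Nat.cast_sub h6, Nat.cast_one]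
            ring
        · intro c
          rw [LinearMap.comp_apply, LinearMap.mulLeft_apply]
          have h2 := hz (Fin.cons (Col.mk h hh pt) c)
          rw [Fin.prod_univ_succ, Fin.cons_zero] at h2
          simp only [Fin.cons_succ] at h2
          exact h2
      intro Q
      exact LinearMap.congr_fun hl Q
    -- the restriction to the first rows vanishes
    have hres : phi ∘ₗ (rename (emb hh) : MvPolynomial (ι × Fin h) ℂ →ₐ[ℂ]
        MvPolynomial (ι × Fin n) ℂ).toLinearMap = 0 := by
      apply capRect _ (fun m => (lam (Fin.castLE hh m) : ℂ))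
      · intro m k hmk P
        rw [LinearMap.comp_apply, AlgHom.toLinearMap_apply, ← pol_emb]
        exact h0 _ _ (by exact hmk) _
      · intro m P
        rw [LinearMap.comp_apply, AlgHom.toLinearMap_apply, ← pol_emb]
        exact h1 _ _
      · intro m
        have h2 : lam (Fin.castLE hh m) ≠ 0 := hpos _ m.2
        rw [← Nat.cast_add, Nat.cast_ne_zero]
        omega
      · intro pt P
        rw [LinearMap.comp_apply, AlgHom.toLinearMap_apply, map_mul]
        have h2 := hcol pt (rename (emb hh) P)
        rw [Col.det_eq] at h2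
        exact h2
    apply (MvPolynomial.basisMonomials _ ℂ).ext
    intro d
    rw [coe_basisMonomials, LinearMap.zero_apply]
    by_cases hd : ∃ k : Fin n, h ≤ (k : ℕ) ∧ ∑ i, d (i, k) ≠ 0
    · obtain ⟨k, hk, hdk⟩ := hd
      exact van phi k (hk0 k hk) d hdk
    · push Not at hd
      -- all letters are in the first rows
      have hemb : Function.Injective (emb hh : ι × Fin h → ι × Fin n) := by
        rintro ⟨i, j⟩ ⟨i', j'⟩ h2
        simp only [emb, Prod.mk.injEq] at h2
        exact Prod.ext h2.1 (Fin.castLE_injective hh h2.2)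
      let e : (ι × Fin h) →₀ ℕ := Finsupp.comapDomain (emb hh) d hemb.injOn
      have he : Finsupp.mapDomain (emb hh) e = d := by
        apply Finsupp.mapDomain_comapDomain _ hemb
        intro p hp
        rw [Finset.mem_coe, Finsupp.mem_support_iff] at hp
        obtain ⟨i, k⟩ := p
        have hkh : (k : ℕ) < h := by
          by_contra h2
          rw [not_lt] at h2
          exact hp ((Finset.sum_eq_zero_iff.1 (hd k h2)) i (Finset.mem_univ i))
        exact ⟨(i, ⟨k, hkh⟩), rfl⟩
      have h2 := LinearMap.congr_fun hres (monomial e 1)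
      rw [LinearMap.comp_apply, AlgHom.toLinearMap_apply, rename_monomial, he] at h2
      exact h2

/-- **Columns.** A highest weight functional of weight `lam`, `lam_1 ≤ M`, which kills all products
of `M` top minors, is zero. -/
theorem hwCols (M : ℕ) (phi : MvPolynomial (ι × Fin n) ℂ →ₗ[ℂ] ℂ) (lam : Fin n → ℕ)
    (hanti : Antitone lam) (hM : ∀ i, lam i ≤ M)
    (h0 : ∀ m k : Fin n, m < k → ∀ P, phi (pol k m P) = 0)
    (h1 : ∀ (m : Fin n) P, phi (pol m m P) = (lam m : ℂ) * phi P)
    (hz : ∀ (h : Fin M → ℕ) (hh : ∀ j, h j ≤ n) (pt : ∀ j, Fin (h j) → ι),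
      phi (∏ j, Matrix.det (Matrix.of fun s t : Fin (h j) =>
        (X (pt j t, Fin.castLE (hh j) s) : MvPolynomial (ι × Fin n) ℂ))) = 0) : phi = 0 :=
  cols M phi lam hanti hM h0 h1 (fun c => hz (fun j => (c j).h) (fun j => (c j).hh)
    (fun j => (c j).pt))

end Vale.Agent.P181.FLAT.H898
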