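import Vale.Agent.P181.H385.ColAdd
import Vale.Agent.P181.H869.TallAllF

set_option autoImplicit false

/-!
Line FLAT: from `b = q a` to every even `b` (a even) and to `b = q a + c`, `4 ∣ c` (a odd), by the
translation principle `H385.colAdd` (columns of length `a` are added).
-/

namespace Vale.Agent.P181.FLAT.H898

open Vale.Agent.P181 Vale.Agent.P181.H280

/-- Flat shapes for `b = q a`: the bound on the first row is `B a q`. -/
def FlatB (B : ℕ → ℕ → ℕ) (p : ℕ → Prop) : Prop := ∀ (a q n : ℕ) (lam : Fin n → ℕ), p a → 2 ≤ a →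
  1 ≤ q → (∀ i, lam i ≤ B a q) → plethMult a (q * a) n lam ≤ plethMult (q * a) a n lam

/-- Adding `c` full columns. -/
theorem flat_shift {B : ℕ → ℕ → ℕ} {p : ℕ → Prop} (hF : FlatB B p) {a q c n : ℕ} (hp : p a)
    (ha : 2 ≤ a) (hq : 1 ≤ q) (han : a ≤ n) (hc : Even c)
    (hinv : 1 ≤ plethMult c a a (fun _ => c)) (lam : Fin n → ℕ)
    (h1 : ∀ i, lam i ≤ B a q + c) (h2 : ∀ i : Fin n, (i : ℕ) < a → c ≤ lam i) :
    plethMult a (q * a + c) n lam ≤ plethMult (q * a + c) a n lam := by
  by_cases h0 : plethMult a (q * a + c) n lam = 0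
  · rw [h0]
    exact Nat.zero_le _
  · obtain ⟨-, -, hz⟩ := H530.zero_stmt a (q * a + c) n _ h0
    set mu : Fin n → ℕ := fun i => if (i : ℕ) < a then lam i - c else 0 with hmu
    have h3 : lam = fun i => mu i + if (i : ℕ) < a then c else 0 := by
      funext i
      by_cases hi : (i : ℕ) < a
      · have := h2 i hi
        simp only [hmu, if_pos hi]
        omega
      · have := hz i (not_lt.1 hi)
        simp only [hmu, if_neg hi]
        omega
    rw [h3]
    refine H385.colAdd a (q * a) c n mu (by omega) han hc hinv (hF a q n mu hp ha hq ?_)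
    intro i
    have := h1 i
    simp only [hmu]
    split_ifs <;> omega

/-- **Flat shapes, `a` and `b` even** (any `b ≥ 2a`). -/
theorem flat_even (hF : FlatB (fun a q => (q + 1) * a) Even) {a b n : ℕ} (ha : 2 ≤ a)
    (hae : Even a) (hbe : Even b) (hab : 2 * a ≤ b) (han : a ≤ n) (lam : Fin n → ℕ)
    (h1 : ∀ i, lam i ≤ a + b) (h2 : ∀ i : Fin n, (i : ℕ) < a → a + b % a ≤ lam i) :
    plethMult a b n lam ≤ plethMult b a n lam := by
  have hd := Nat.div_add_mod b a
  have hq : 2 ≤ b / a := (Nat.le_div_iff_mul_le (by omega)).2 hab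
  obtain ⟨q, hqe⟩ := Nat.exists_eq_add_of_le hq
  have hb : b = (q + 1) * a + (a + b % a) := by
    conv_lhs => rw [← hd, hqe]
    ring
  have hce : Even (a + b % a) := by
    have h3 : Even ((q + 1) * a) := hae.mul_left _
    rw [hb] at hbe
    exact (Nat.even_add.1 hbe).1 h3
  obtain ⟨h, hh⟩ := id hae
  obtain ⟨K, hK⟩ := id hce
  have hinv : 1 ≤ plethMult (a + b % a) a a (fun _ => a + b % a) := by
    have h3 := H23.invE h K (by omega) (by omega)
    have e1 : 2 * h = a := by omega
    have e2 : 2 * K = a + b % a := by omega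
    rw [e1, e2] at h3
    exact h3
  have h4 := flat_shift hF (q := q + 1) hae ha (by omega) han hce hinv lam (fun i => by
    have h5 := h1 i
    have h6 : a + b = (q + 1 + 1) * a + (a + b % a) := by
      conv_lhs => rw [hb]
      ring
    omega) h2
  rw [← hb] at h4
  exact h4

/-- **Flat shapes, `a` odd**, `b = q a + c` with `4 ∣ c`, `a < c`. -/
theorem flat_odd (hF : FlatB (fun a q => (q + 1) * (a - 1)) Odd) {a q c n : ℕ} (ha : 2 ≤ a)
    (hao : Odd a) (hq : 1 ≤ q) (hc4 : 4 ∣ c) (hac : a < c) (han : a ≤ n) (lam : Fin n → ℕ)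
    (h1 : ∀ i, lam i ≤ (q + 1) * (a - 1) + c) (h2 : ∀ i : Fin n, (i : ℕ) < a → c ≤ lam i) :
    plethMult a (q * a + c) n lam ≤ plethMult (q * a + c) a n lam := by
  obtain ⟨K, hK⟩ := hc4
  obtain ⟨h, hh⟩ := id hao
  have hinv : 1 ≤ plethMult c a a (fun _ => c) := by
    have h3 := H662.invO h (2 * K) (by omega) (by omega) (even_two_mul K)
    have e1 : 2 * h + 1 = a := by omega
    have e2 : 2 * (2 * K) = c := by omega
    rw [e1, e2] at h3
    exact h3
  exact flat_shift hF hao ha hq han ⟨2 * K, by omega⟩ hinv lam h1 h2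

end Vale.Agent.P181.FLAT.H898
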