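import Vale.Agent.P181.H777.Tails
import Vale.Agent.P181.FLAT.H302.All
import Vale.Agent.P181.FLAT.H190.OddFin
import Vale.Agent.P181.FLAT.H898.Shift

set_option autoImplicit false

/-!
# P181, line FLAT: all `b` (first row and columns)

helper612 (#16029): first row extension of a power map theorem on `a` slots, letters of degree `m`.
-/

namespace Vale.Agent.P181.FLAT.H898

open Vale.Agent.P181 Vale.Agent.P181.H280

/-- First row extension: a bound for `h_a[h_{q m}]` and `h_{q a}[h_m]`, `m ≤ a`, `q a ≤ b`, for one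
weight gives Foulkes' inequality for `(a, b)` and the weight with a longer first row. -/
theorem rowExt {a b q m n M : ℕ} (hW : ∀ lam : Fin (n + 1) → ℕ, (∀ i, lam i ≤ M) →
      plethMult a (q * m) (n + 1) lam ≤ plethMult (q * a) m (n + 1) lam)
    (hma : m ≤ a) (hq : q * a ≤ b) (lam : Fin (n + 1) → ℕ)
    (h2 : ∀ i : Fin n, lam i.succ ≤ q * m) (hM : ∀ i : Fin n, lam i.succ ≤ M)
    (h1 : lam 0 ≤ a * (b - q * m) + M) :
    plethMult a b (n + 1) lam ≤ plethMult b a (n + 1) lam := by
  by_cases h0 : plethMult a b (n + 1) lam = 0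
  · rw [h0]
    exact Nat.zero_le _
  obtain ⟨-, hs, -⟩ := H530.zero_stmt a b (n + 1) lam h0
  have hqb : q * m ≤ b := (Nat.mul_le_mul_left q hma).trans hq
  set α : Fin n → ℕ := fun i => lam i.succ with hα
  have hs' : lam 0 + ∑ i, α i = a * b := by
    rw [Fin.sum_univ_succ] at hs
    exact hs
  have e1 : lam = H777.pad (a * b) α := by
    funext i
    refine Fin.cases ?_ (fun i => rfl) i
    rw [H777.pad_zero]
    omega
  have e2 : plethMult a b (n + 1) lam = H777.F a b α := by
    rw [H777.F, ← e1]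
  have e3 : plethMult b a (n + 1) lam = H777.F b a α := by
    rw [H777.F, mul_comm b a, ← e1]
  rw [e2, e3, H777.F_inner_stab a hqb α h2]
  have h4 : H777.F a (q * m) α ≤ H777.F (q * a) m α := by
    have e4 : q * a * m = a * (q * m) := by ring
    rw [H777.F, H777.F, e4]
    refine hW _ fun i => ?_
    refine Fin.cases ?_ hM i
    rw [H777.pad_zero]
    have e5 : a * b = a * (b - q * m) + a * (q * m) := by
      rw [← mul_add, Nat.sub_add_cancel hqb]
    omega
  exact h4.trans ((H777.F_inner_mono (q * a) hma α).trans (H777.F_outer_mono hq a α))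

/-- **helper612's FlatAll**: every `b ≥ q a`, `m ≤ a` even. -/
theorem flatAll (a b q m n : ℕ) (lam : Fin (n + 1) → ℕ) (hm : Even m) (hq1 : 1 ≤ q) (hma : m ≤ a)
    (hq : q * a ≤ b) (h2 : ∀ i : Fin n, lam i.succ ≤ q * m)
    (h1 : lam 0 ≤ a * (b - q * m) + (q + 1) * m) :
    plethMult a b (n + 1) lam ≤ plethMult b a (n + 1) lam :=
  rowExt (M := (q + 1) * m) (fun lam h => (flat a q m (n + 1) hq1 hm lam h).2) hma hq lam h2
    (fun i => (h2 i).trans (Nat.mul_le_mul_right m (by omega))) h1

/-- The columns which can be added. -/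
def ColOK (a c : ℕ) : Prop := c = 0 ∨ (Even a ∧ Even c ∧ a ≤ c) ∨ (Odd a ∧ 4 ∣ c ∧ a < c)

theorem colOK_inv {a c : ℕ} (ha : 2 ≤ a) (hc0 : c ≠ 0) (h : ColOK a c) :
    Even c ∧ 1 ≤ plethMult c a a (fun _ => c) := by
  rcases h with h | ⟨hae, hce, hac⟩ | ⟨hao, hc4, hac⟩
  · exact absurd h hc0
  · obtain ⟨h, hh⟩ := id hae
    obtain ⟨K, hK⟩ := id hce
    have h3 := H23.invE h K (by omega) (by omega)
    have e1 : 2 * h = a := by omega
    have e2 : 2 * K = c := by omega
    rw [e1, e2] at h3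
    exact ⟨hce, h3⟩
  · obtain ⟨K, hK⟩ := hc4
    obtain ⟨h, hh⟩ := id hao
    have h3 := H662.invO h (2 * K) (by omega) (by omega) (even_two_mul K)
    have e1 : 2 * h + 1 = a := by omega
    have e2 : 2 * (2 * K) = c := by omega
    rw [e1, e2] at h3
    exact ⟨⟨2 * K, by omega⟩, h3⟩

/-- Removing `c` full columns. -/
theorem colExt {a b c n : ℕ} (ha : 2 ≤ a) (hc : ColOK a c) (lam : Fin n → ℕ)
    (hcol : ∀ i : Fin n, (i : ℕ) < a → c ≤ lam i) (han : c ≠ 0 → a ≤ n)
    (hF : plethMult a b n (fun i => lam i - c) ≤ plethMult b a n (fun i => lam i - c)) :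
    plethMult a (b + c) n lam ≤ plethMult (b + c) a n lam := by
  by_cases hc0 : c = 0
  · subst hc0
    simpa using hF
  obtain ⟨hce, hinv⟩ := colOK_inv ha hc0 hc
  by_cases h0 : plethMult a (b + c) n lam = 0
  · rw [h0]
    exact Nat.zero_le _
  obtain ⟨-, -, hz⟩ := H530.zero_stmt a (b + c) n _ h0
  have h3 : lam = fun i => (lam i - c) + if (i : ℕ) < a then c else 0 := by
    funext i
    by_cases hi : (i : ℕ) < a
    · have := hcol i hi
      rw [if_pos hi]
      omega
    · have := hz i (not_lt.1 hi)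
      rw [if_neg hi]
      omega
  have h4 := H385.colAdd a b c n (fun i => lam i - c) (by omega) (han hc0) hce hinv hF
  rw [← h3] at h4
  exact h4

end Vale.Agent.P181.FLAT.H898
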