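import Vale.Agent.P181.FLAT.H898.Row
import Vale.Agent.P181.FLAT.H190.OddG
import Vale.Agent.P181.FL2.H858.Asm
import Vale.Agent.P181.FL2.H172.Dom

set_option autoImplicit false

/-!
# P181, lines FLAT / FL2: the union (all `b ≥ q a`, columns of length `a` added)
-/

namespace Vale.Agent.P181.FLAT.H898

open Vale.Agent.P181 Vale.Agent.P181.H280

/-- Widths `M` of the flat theorems for `h_a[h_{q m}] ≤ h_{q a}[h_m]`. -/
def Width (a q m M : ℕ) : Prop :=
  (Even m ∧ M ≤ (q + 1) * m) ∨ (Odd m ∧ a ≤ m ∧ M ≤ (q + 1) * (m - 1)) ∨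
    (M : ℝ) + 8 * (q : ℝ) ^ 2 * Real.log (2 * q * a) ≤ 2 * q * m

theorem width_le {a q m M n : ℕ} (hq : 1 ≤ q) (h : Width a q m M) (lam : Fin n → ℕ)
    (hlam : ∀ i, lam i ≤ M) : plethMult a (q * m) n lam ≤ plethMult (q * a) m n lam := by
  rcases h with ⟨hm, hM⟩ | ⟨hm, ham, hM⟩ | h
  · exact (H190.flatG_all a q m n hq lam (Or.inl ⟨hm, fun i => (hlam i).trans hM⟩)).2
  · exact (H190.flatG_all a q m n hq lam (Or.inr ⟨hm, ham, fun i => (hlam i).trans hM⟩)).2
  · exact FL2.H858.flat2 (FL2.H172.dom2 a q m M hq h) lam hlam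

/-- The union without columns, `Fin n` form. -/
theorem base {a b q m M n : ℕ} (ha : 1 ≤ a) (hb1 : 1 ≤ b) (hq : 1 ≤ q) (hma : m ≤ a)
    (hw : Width a q m M) (hb : q * a ≤ b) (lam : Fin n → ℕ)
    (h1 : ∀ i : Fin n, (i : ℕ) = 0 → lam i ≤ a * (b - q * m) + M)
    (h2 : ∀ i : Fin n, (i : ℕ) ≠ 0 → lam i ≤ M)
    (h3 : b = q * m ∨ ∀ i : Fin n, (i : ℕ) ≠ 0 → lam i ≤ q * m) :
    plethMult a b n lam ≤ plethMult b a n lam := by
  rcases h3 with h3 | h3
  · subst h3
    have e : m = a := le_antisymm hma (Nat.le_of_mul_le_mul_left hb hq)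
    subst e
    refine width_le hq hw lam fun i => ?_
    by_cases hi : (i : ℕ) = 0
    · have := h1 i hi
      rw [Nat.sub_self, mul_zero, zero_add] at this
      exact this
    · exact h2 i hi
  · rcases n with _ | n
    · by_cases h0 : plethMult a b 0 lam = 0
      · rw [h0]
        exact Nat.zero_le _
      · obtain ⟨-, hs, -⟩ := H530.zero_stmt a b 0 lam h0
        have : 0 < a * b := Nat.mul_pos ha hb1
        simp at hs
        omega
    · exact rowExt (M := M) (fun lam h => width_le hq hw lam h) hma hb lam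
        (fun i => h3 i.succ (by simp)) (fun i => h2 i.succ (by simp)) (h1 0 rfl)

/-- **The flat region of Foulkes' conjecture**: columns of length `a` (`c` of them) are added. -/
theorem union {a b q m c M n : ℕ} (ha : 2 ≤ a) (hq : 1 ≤ q) (hma : m ≤ a)
    (hw : Width a q m M) (hb : q * a + c ≤ b) (hc : ColOK a c) (han : c = 0 ∨ a ≤ n)
    (lam : Fin n → ℕ) (hcol : ∀ i : Fin n, (i : ℕ) < a → c ≤ lam i)
    (h1 : ∀ i : Fin n, (i : ℕ) = 0 → lam i ≤ a * (b - c - q * m) + M + c)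
    (h2 : ∀ i : Fin n, (i : ℕ) ≠ 0 → lam i ≤ M + c)
    (h3 : b = q * m + c ∨ ∀ i : Fin n, (i : ℕ) ≠ 0 → lam i ≤ q * m + c) :
    plethMult a b n lam ≤ plethMult b a n lam := by
  obtain ⟨b', rfl⟩ : ∃ b', b = b' + c := ⟨b - c, by omega⟩
  have hqa : 1 ≤ q * a := Nat.mul_pos (by omega) (by omega)
  refine colExt ha hc lam hcol (fun h => han.resolve_left h) ?_
  refine base (M := M) (m := m) (q := q) (by omega) (by omega) hq hma hw (by omega) _ ?_ ?_ ?_
  · intro i hi
    have h4 := h1 i hi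
    rw [Nat.add_sub_cancel] at h4
    omega
  · intro i hi
    have := h2 i hi
    omega
  · rcases h3 with h3 | h3
    · exact Or.inl (by omega)
    · refine Or.inr fun i hi => ?_
      have := h3 i hi
      omega

end Vale.Agent.P181.FLAT.H898
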